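import Vale.Agent.P060.Forms3

/-!
# P060: complete minors of order almost n/2 in very dense graphs

`P060.HasCompleteMinor G t` (file `Vale/Agent/P060/Core.lean`) says that `G` has a `K_t` minor in
the sense of the problem file: `t` pairwise disjoint nonempty vertex sets, each inducing a
connected subgraph, with an edge of `G` between any two of them.
-/

open Finset

namespace Vale.Agent.Results.P060.AlmostHalf

theorem result :
    (∀ (V : Type) [Fintype V] [DecidableEq V] (G : SimpleGraph V) [DecidableRel G.Adj] (D : ℕ),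
      (∀ v, Gᶜ.degree v ≤ D) →
      ∃ t, P060.HasCompleteMinor G t ∧
        (Fintype.card V / 2 - 1) * (Fintype.card V / 2)
          ≤ (Fintype.card V / 2 - 1) * (t + (D + 1)) + (D + 1) ^ 3) ∧
    (∀ (V : Type) [Fintype V] [DecidableEq V] (G : SimpleGraph V) (K : ℕ)
      (c : Gᶜ.Coloring (Fin K)),
      (∀ x u y v, Gᶜ.Adj x u → Gᶜ.Adj u y → Gᶜ.Adj y v → Gᶜ.Adj v x → x ≠ y → u ≠ v →
        ¬ (c x = c y ∧ c u = c v)) →
      ∃ t, Fintype.card V ≤ 2 * t + K ∧ P060.HasCompleteMinor G t) :=
  ⟨fun _ _ _ G _ D hdeg => P060.almost_half_deg G D hdeg,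
   fun _ _ _ G K c hC4 => P060.classes_form G K c hC4⟩

end Vale.Agent.Results.P060.AlmostHalf
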