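import Vale.Agent.Results.P060.ComplementBalls
import Vale.Agent.Results.P060.AlmostHalf

/-!
# P060: conjunction of the results on complete minors in very dense graphs

`P060.HasCompleteMinor G t` (file `Vale/Agent/P060/Core.lean`) says that `G` has a `K_t` minor in
the sense of the problem file: `t` pairwise disjoint nonempty vertex sets, each inducing a
connected subgraph, with an edge of `G` between any two of them.
-/

open Finset

namespace Vale.Agent.Results.P060.AllParts

open Vale.Agent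

theorem result :
    (∀ (V : Type) [Fintype V] [DecidableEq V] (G : SimpleGraph V) [DecidableRel G.Adj] (β : ℕ),
      (∀ v, (univ.filter (fun w => ∃ x, ¬ G.Adj x v ∧ ¬ G.Adj x w)).card ≤ β) →
      (∀ (m : ℕ) (a b : Fin m → V), Function.Injective (Sum.elim a b) →
        (∀ i, Gᶜ.Adj (a i) (b i)) → 2 * β ≤ m →
        ∃ t, G.Colorable t ∧ P060.HasCompleteMinor G t) ∧
      (4 * β ≤ Fintype.card V → P060.HasCompleteMinor G ((Fintype.card V + 1) / 2))) ∧
    (∀ (V : Type) [Fintype V] [DecidableEq V] (G : SimpleGraph V) [DecidableRel G.Adj] (D : ℕ),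
      (∀ v, Gᶜ.degree v ≤ D) →
      (∀ v, (univ.filter (fun w => ∃ x, ¬ G.Adj x v ∧ ¬ G.Adj x w)).card ≤ (D + 1) ^ 2) ∧
      (4 * (D + 1) ^ 3 ≤ (univ.filter (fun v => ∃ w, w ≠ v ∧ ¬ G.Adj v w)).card →
        ∃ t, G.Colorable t ∧ P060.HasCompleteMinor G t)) ∧
    (∀ (V : Type) [Fintype V] [DecidableEq V] (G : SimpleGraph V) [DecidableRel G.Adj] (D : ℕ),
      (∀ v, Gᶜ.degree v ≤ D) →
      ∃ t, P060.HasCompleteMinor G t ∧
        (Fintype.card V / 2 - 1) * (Fintype.card V / 2)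
          ≤ (Fintype.card V / 2 - 1) * (t + (D + 1)) + (D + 1) ^ 3) ∧
    (∀ (V : Type) [Fintype V] [DecidableEq V] (G : SimpleGraph V) (K : ℕ)
      (c : Gᶜ.Coloring (Fin K)),
      (∀ x u y v, Gᶜ.Adj x u → Gᶜ.Adj u y → Gᶜ.Adj y v → Gᶜ.Adj v x → x ≠ y → u ≠ v →
        ¬ (c x = c y ∧ c u = c v)) →
      ∃ t, Fintype.card V ≤ 2 * t + K ∧ P060.HasCompleteMinor G t) :=
  ⟨ComplementBalls.result.1, ComplementBalls.result.2, AlmostHalf.result.1, AlmostHalf.result.2⟩

end Vale.Agent.Results.P060.AllParts
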