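import Vale.Agent.P060.Forms2

/-!
# P060: Hadwiger's conjecture when balls of radius two in the complement are small

`P060.HasCompleteMinor G t` (file `Vale/Agent/P060/Core.lean`) says that `G` has a `K_t` minor in
the sense of the problem file: `t` pairwise disjoint nonempty vertex sets, each inducing a
connected subgraph, with an edge of `G` between any two of them.

Two vertices `v, w` are close if some vertex `x` is non-adjacent in `G` to both (a vertex is
non-adjacent to itself, so `x = v` or `x = w` is allowed): distance at most two in the complement.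
-/

open Finset

namespace Vale.Agent.Results.P060.ComplementBalls

theorem result :
    (∀ (V : Type) [Fintype V] [DecidableEq V] (G : SimpleGraph V) [DecidableRel G.Adj] (β : ℕ),
      (∀ v, (univ.filter (fun w => ∃ x, ¬ G.Adj x v ∧ ¬ G.Adj x w)).card ≤ β) →
      (∀ (m : ℕ) (a b : Fin m → V), Function.Injective (Sum.elim a b) →
        (∀ i, Gᶜ.Adj (a i) (b i)) → 2 * β ≤ m →
        ∃ t, G.Colorable t ∧ P060.HasCompleteMinor G t) ∧
      (4 * β ≤ Fintype.card V → P060.HasCompleteMinor G ((Fintype.card V + 1) / 2))) ∧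
    (∀ (V : Type) [Fintype V] [DecidableEq V] (G : SimpleGraph V) [DecidableRel G.Adj] (D : ℕ),
      (∀ v, Gᶜ.degree v ≤ D) →
      (∀ v, (univ.filter (fun w => ∃ x, ¬ G.Adj x v ∧ ¬ G.Adj x w)).card ≤ (D + 1) ^ 2) ∧
      (4 * (D + 1) ^ 3 ≤ (univ.filter (fun v => ∃ w, w ≠ v ∧ ¬ G.Adj v w)).card →
        ∃ t, G.Colorable t ∧ P060.HasCompleteMinor G t)) :=
  ⟨fun _ _ _ G _ β hball =>
    ⟨fun m a b hinj hnon hm => P060.ball_form G β m hball a b hinj hnon hm,
     fun hn => P060.half_minor G β hball hn⟩,
   fun _ _ _ G _ D hdeg =>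
    ⟨fun v => P060.ball_le_of_deg G D hdeg v, fun hn => P060.count_form G D hdeg hn⟩⟩

end Vale.Agent.Results.P060.ComplementBalls
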