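import Vale.Agent.P060.Forms

/-!
# P060: Hadwiger's conjecture for graphs whose complement has small maximum degree

`P060.HasCompleteMinor G t` (file `Vale/Agent/P060/Core.lean`) says that `G` has a `K_t` minor in
the sense of the problem file: `t` pairwise disjoint nonempty vertex sets, each inducing a
connected subgraph, with an edge of `G` between any two of them.
-/

open Finset

namespace Vale.Agent.Results.P060.DenseGraphs

/-- Hadwiger's conjecture for very dense graphs.  Let every vertex of the finite graph `G` have at
most `D` non-neighbours.  (1) If the complement has a matching with at least `2 (D+1)^2` edges, or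
(2) if at least `4 (D+1)^3` vertices have a non-neighbour, then for some `t` the graph is
`t`-colourable and has a `K_t` minor, i.e. `χ(G) ≤ h(G)`. -/
theorem result :
    (∀ (V : Type) [Fintype V] [DecidableEq V] (G : SimpleGraph V) [DecidableRel G.Adj] (D m : ℕ),
      (∀ v, Gᶜ.degree v ≤ D) →
      ∀ a b : Fin m → V, Function.Injective (Sum.elim a b) → (∀ i, Gᶜ.Adj (a i) (b i)) →
      2 * (D + 1) ^ 2 ≤ m →
      ∃ t, G.Colorable t ∧ P060.HasCompleteMinor G t) ∧
    (∀ (V : Type) [Fintype V] [DecidableEq V] (G : SimpleGraph V) [DecidableRel G.Adj] (D : ℕ),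
      (∀ v, Gᶜ.degree v ≤ D) →
      4 * (D + 1) ^ 3 ≤ (univ.filter (fun v => ∃ w, w ≠ v ∧ ¬ G.Adj v w)).card →
      ∃ t, G.Colorable t ∧ P060.HasCompleteMinor G t) :=
  ⟨fun _ _ _ G _ D m hdeg a b hinj hnon hm => P060.matching_form G D m hdeg a b hinj hnon hm,
   fun _ _ _ G _ D hdeg hn => P060.count_form G D hdeg hn⟩

end Vale.Agent.Results.P060.DenseGraphs
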